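import Mathlib

/-!
# P110: real Littlewood polynomials with a dominant block are not ultraflat
-/

namespace Vale.Agent.Results.P110.BlockSequences

open Finset

/-- The polynomial with coefficients `a 0, ..., a (N - 1)`, as a function of `z`. -/
noncomputable def P (a : ℕ → ℝ) (N : ℕ) (z : ℂ) : ℂ := ∑ n ∈ range N, (a n : ℂ) * z ^ n

/-- All coefficients are `1` or `-1`. -/
def IsSign (a : ℕ → ℝ) : Prop := ∀ n, a n = 1 ∨ a n = -1

/-- The aperiodic autocorrelation of `a 0, ..., a (N - 1)` at shift `s`. -/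
def auto (a : ℕ → ℝ) (N s : ℕ) : ℝ := ∑ n ∈ range (N - s), a n * a (n + s)

theorem parseval (a : ℕ → ℝ) (N : ℕ) :
    Real.circleAverage (fun z => ‖P a N z‖ ^ 2) 0 1 = ∑ n ∈ range N, a n ^ 2 := by
  set p : Polynomial ℂ := ∑ n ∈ range N, Polynomial.monomial n (a n : ℂ) with hp
  have hc : ∀ n, p.coeff n = if n < N then (a n : ℂ) else 0 := by
    intro n
    rw [hp, Polynomial.finset_sum_coeff]
    simp only [Polynomial.coeff_monomial]
    rw [Finset.sum_ite_eq']
    simp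
  have he : ∀ z, p.eval z = P a N z := by
    intro z
    rw [hp, Polynomial.eval_finset_sum]
    simp [P, Polynomial.eval_monomial]
  have h := p.sum_sq_norm_coeff_eq_circleAverage
  simp only [he] at h
  rw [← h]
  have hsub : p.support ⊆ range N := by
    intro n hn
    rw [Polynomial.mem_support_iff, hc] at hn
    by_contra hcon
    rw [mem_range] at hcon
    simp [hcon] at hn
  rw [Finset.sum_subset hsub (fun n _ hn => by
    rw [Polynomial.notMem_support_iff] at hn; simp [hn])]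
  refine Finset.sum_congr rfl fun n hn => ?_
  rw [hc, if_pos (mem_range.1 hn)]
  simp

theorem P_cont (a : ℕ → ℝ) (N : ℕ) : Continuous (P a N) := by
  unfold P; fun_prop

theorem avg_le {f g : ℂ → ℝ} (hf : Continuous f) (hg : Continuous g)
    (h : ∀ z : ℂ, ‖z‖ = 1 → f z ≤ g z) :
    Real.circleAverage f 0 1 ≤ Real.circleAverage g 0 1 := by
  apply Real.circleAverage_mono
  · exact hf.continuousOn.circleIntegrable'
  · exact hg.continuousOn.circleIntegrable'
  · intro z hz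
    apply h
    simpa using hz

/-- Bound by the autocorrelation. -/
theorem auto_le {a : ℕ → ℝ} {N s : ℕ} {ε S : ℝ} (hs : 1 ≤ s) (hsN : s ≤ N) (hε : ε ^ 2 = 1)
    (h : ∀ z : ℂ, ‖z‖ = 1 → ‖P a N z‖ ^ 2 ≤ S) :
    (∑ n ∈ range N, a n ^ 2) + ε * auto a N s ≤ S := by
  set A : ℕ → ℝ := fun n => if n < N then a n else 0 with hA
  set B : ℕ → ℝ := fun n => if s ≤ n then A (n - s) else 0 with hB
  set q : ℕ → ℝ := fun n => A n + ε * B n with hq
  set r : ℕ → ℝ := fun n => if n = 0 then 1 else if n = s then ε else 0 with hr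
  have hr2 : ∑ n ∈ range (s + 1), r n ^ 2 = 2 := by
    obtain ⟨t, rfl⟩ : ∃ t, s = t + 1 := ⟨s - 1, by omega⟩
    rw [Finset.sum_range_succ, Finset.sum_range_succ']
    have h0 : ∑ n ∈ range t, r (n + 1) ^ 2 = 0 := by
      apply Finset.sum_eq_zero
      intro n hn
      rw [mem_range] at hn
      simp [hr, show ¬ (n = t) by omega]
    rw [h0]
    simp [hr, hε]
    norm_num
  have hrP : ∀ z, P r (s + 1) z = 1 + ε * z ^ s := by
    intro z
    obtain ⟨t, rfl⟩ : ∃ t, s = t + 1 := ⟨s - 1, by omega⟩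
    unfold P
    rw [Finset.sum_range_succ, Finset.sum_range_succ']
    have h0 : ∑ n ∈ range t, ((r (n + 1) : ℝ) : ℂ) * z ^ (n + 1) = 0 := by
      apply Finset.sum_eq_zero
      intro n hn
      rw [mem_range] at hn
      simp [hr, show ¬ (n = t) by omega]
    rw [h0]
    simp [hr]
  have hAP : ∀ z : ℂ, ∑ n ∈ range (N + s), ((A n : ℝ) : ℂ) * z ^ n = P a N z := by
    intro z
    rw [Finset.sum_range_add]
    have h0 : ∑ n ∈ range s, ((A (N + n) : ℝ) : ℂ) * z ^ (N + n) = 0 := by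
      apply Finset.sum_eq_zero
      intro n _
      simp [hA]
    rw [h0, add_zero]
    unfold P
    refine Finset.sum_congr rfl fun n hn => ?_
    simp [hA, mem_range.1 hn]
  have hBP : ∀ z : ℂ, ∑ n ∈ range (N + s), ((B n : ℝ) : ℂ) * z ^ n = z ^ s * P a N z := by
    intro z
    rw [add_comm N s, Finset.sum_range_add]
    have h0 : ∑ n ∈ range s, ((B n : ℝ) : ℂ) * z ^ n = 0 := by
      apply Finset.sum_eq_zero
      intro n hn
      rw [mem_range] at hn
      simp [hB, show ¬ (s ≤ n) by omega]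
    rw [h0, zero_add]
    unfold P
    rw [Finset.mul_sum]
    refine Finset.sum_congr rfl fun n hn => ?_
    simp [hB, hA, mem_range.1 hn]
    ring
  have hqP : ∀ z, P q (N + s) z = (1 + ε * z ^ s) * P a N z := by
    intro z
    have : P q (N + s) z = ∑ n ∈ range (N + s), ((A n : ℝ) : ℂ) * z ^ n
        + ε * ∑ n ∈ range (N + s), ((B n : ℝ) : ℂ) * z ^ n := by
      unfold P
      rw [Finset.mul_sum, ← Finset.sum_add_distrib]
      refine Finset.sum_congr rfl fun n _ => ?_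
      simp only [hq]
      push_cast
      ring
    rw [this, hAP, hBP]
    ring
  have hA2 : ∑ n ∈ range (N + s), A n ^ 2 = ∑ n ∈ range N, a n ^ 2 := by
    rw [Finset.sum_range_add]
    have h0 : ∑ n ∈ range s, A (N + n) ^ 2 = 0 := by
      apply Finset.sum_eq_zero
      intro n _
      simp [hA]
    rw [h0, add_zero]
    refine Finset.sum_congr rfl fun n hn => ?_
    simp [hA, mem_range.1 hn]
  have hB2 : ∑ n ∈ range (N + s), B n ^ 2 = ∑ n ∈ range N, a n ^ 2 := by
    rw [add_comm N s, Finset.sum_range_add]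
    have h0 : ∑ n ∈ range s, B n ^ 2 = 0 := by
      apply Finset.sum_eq_zero
      intro n hn
      rw [mem_range] at hn
      simp [hB, show ¬ (s ≤ n) by omega]
    rw [h0, zero_add]
    refine Finset.sum_congr rfl fun n hn => ?_
    simp [hB, hA, mem_range.1 hn]
  have hAB : ∑ n ∈ range (N + s), A n * B n = auto a N s := by
    rw [add_comm N s, Finset.sum_range_add]
    have h0 : ∑ n ∈ range s, A n * B n = 0 := by
      apply Finset.sum_eq_zero
      intro n hn
      rw [mem_range] at hn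
      simp [hB, show ¬ (s ≤ n) by omega]
    rw [h0, zero_add]
    have h1 : N = (N - s) + s := by omega
    have h2 : ∑ n ∈ range N, A (s + n) * B (s + n)
        = ∑ n ∈ range ((N - s) + s), A (s + n) * B (s + n) := by rw [← h1]
    rw [h2, Finset.sum_range_add]
    have h3 : ∑ n ∈ range s, A (s + (N - s + n)) * B (s + (N - s + n)) = 0 := by
      apply Finset.sum_eq_zero
      intro n _
      have : ¬ (s + (N - s + n) < N) := by omega
      simp [hA, this]
    rw [h3, add_zero]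
    unfold auto
    refine Finset.sum_congr rfl fun n hn => ?_
    rw [mem_range] at hn
    have e1 : s + n < N := by omega
    have e2 : n < N := by omega
    simp only [hB, hA]
    rw [if_pos e1, if_pos (by omega : s ≤ s + n), show s + n - s = n by omega, if_pos e2,
      add_comm s n]
    ring
  have hq2 : ∑ n ∈ range (N + s), q n ^ 2
      = 2 * (∑ n ∈ range N, a n ^ 2) + 2 * ε * auto a N s := by
    have : ∑ n ∈ range (N + s), q n ^ 2 = ∑ n ∈ range (N + s), A n ^ 2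
        + 2 * ε * (∑ n ∈ range (N + s), A n * B n) + ∑ n ∈ range (N + s), B n ^ 2 := by
      rw [Finset.mul_sum, ← Finset.sum_add_distrib, ← Finset.sum_add_distrib]
      refine Finset.sum_congr rfl fun n _ => ?_
      simp only [hq]
      linear_combination (B n ^ 2) * hε
    rw [this, hA2, hB2, hAB]
    ring
  have key := avg_le (f := fun z => ‖P q (N + s) z‖ ^ 2)
    (g := fun z => S * ‖P r (s + 1) z‖ ^ 2)
    (by have := P_cont q (N + s); fun_prop) (by have := P_cont r (s + 1); fun_prop)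
    (fun z hz => by
      have h1 := h z hz
      simp only [hqP, hrP, norm_mul, mul_pow]
      nlinarith [sq_nonneg ‖1 + (ε : ℂ) * z ^ s‖])
  rw [parseval, hq2] at key
  have h5 : Real.circleAverage (fun z => S * ‖P r (s + 1) z‖ ^ 2) 0 1 = S * 2 := by
    have := Real.circleAverage_fun_smul (a := S) (f := fun z => ‖P r (s + 1) z‖ ^ 2) (c := 0)
      (R := 1)
    simp only [smul_eq_mul] at this
    rw [this, parseval, hr2]
  rw [h5] at key
  linarith

/-- Sum over a product length, block by block. -/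
theorem sum_block (f : ℕ → ℝ) (m K : ℕ) :
    ∑ n ∈ range (m * K), f n = ∑ j ∈ range K, ∑ i ∈ range m, f (m * j + i) := by
  induction K with
  | zero => simp
  | succ K ih => rw [Nat.mul_succ, Finset.sum_range_add, ih, Finset.sum_range_succ]

/-- The sequence whose block number `j` (of length `m`) is `c j` times the block `b`. -/
noncomputable def prodSeq (m : ℕ) (b c : ℕ → ℝ) (n : ℕ) : ℝ := b (n % m) * c (n / m)

theorem prodSeq_eq {m : ℕ} (b c : ℕ → ℝ) {i : ℕ} (hi : i < m) (j : ℕ) :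
    prodSeq m b c (m * j + i) = b i * c j := by
  unfold prodSeq
  rw [Nat.mul_add_mod, Nat.mod_eq_of_lt hi, Nat.mul_add_div (by omega), Nat.div_eq_of_lt hi,
    add_zero]

theorem sq_one {b : ℕ → ℝ} (hb : IsSign b) (i : ℕ) : b i * b i = 1 := by
  rcases hb i with h | h <;> rw [h] <;> norm_num

theorem auto_prod_m (M K : ℕ) {b c : ℕ → ℝ} (hb : IsSign b) :
    auto (prodSeq (M + 1) b c) ((M + 1) * (K + 1)) (M + 1)
      = (M + 1) * ∑ j ∈ range K, c j * c (j + 1) := by
  unfold auto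
  have e : (M + 1) * (K + 1) - (M + 1) = (M + 1) * K := by
    rw [Nat.mul_succ]; omega
  rw [e, sum_block, Finset.mul_sum]
  refine Finset.sum_congr rfl fun j _ => ?_
  have : ∀ i ∈ range (M + 1), prodSeq (M + 1) b c ((M + 1) * j + i)
      * prodSeq (M + 1) b c ((M + 1) * j + i + (M + 1)) = c j * c (j + 1) := by
    intro i hi
    rw [mem_range] at hi
    rw [show (M + 1) * j + i + (M + 1) = (M + 1) * (j + 1) + i by ring, prodSeq_eq b c hi,
      prodSeq_eq b c hi]
    linear_combination (c j * c (j + 1)) * sq_one hb i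
  rw [Finset.sum_congr rfl this]
  simp

theorem auto_prod_M (M K : ℕ) {b c : ℕ → ℝ} (hc : IsSign c) :
    auto (prodSeq (M + 1) b c) ((M + 1) * (K + 1)) M
      = (K + 1) * (b 0 * b M) + (∑ i ∈ range M, b (i + 1) * b i)
        * ∑ j ∈ range K, c j * c (j + 1) := by
  unfold auto
  have e : (M + 1) * (K + 1) - M = (M + 1) * K + 1 := by
    rw [Nat.mul_succ]; omega
  rw [e, Finset.sum_range_succ, sum_block]
  have h0 : prodSeq (M + 1) b c ((M + 1) * K) * prodSeq (M + 1) b c ((M + 1) * K + M)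
      = b 0 * b M := by
    have h1 := prodSeq_eq (m := M + 1) b c (i := 0) (by omega) K
    rw [add_zero] at h1
    rw [h1, prodSeq_eq (m := M + 1) b c (i := M) (by omega) K]
    linear_combination (b 0 * b M) * sq_one hc K
  rw [h0]
  have : ∀ j ∈ range K, ∑ i ∈ range (M + 1), prodSeq (M + 1) b c ((M + 1) * j + i)
      * prodSeq (M + 1) b c ((M + 1) * j + i + M)
      = (∑ i ∈ range M, b (i + 1) * b i) * (c j * c (j + 1)) + b 0 * b M := by
    intro j _
    rw [Finset.sum_range_succ', Finset.sum_mul]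
    congr 1
    · refine Finset.sum_congr rfl fun i hi => ?_
      rw [mem_range] at hi
      rw [show (M + 1) * j + (i + 1) + M = (M + 1) * (j + 1) + i by ring,
        prodSeq_eq b c (by omega : i + 1 < M + 1), prodSeq_eq b c (by omega : i < M + 1)]
      ring
    · rw [add_zero]
      have h1 := prodSeq_eq (m := M + 1) b c (i := 0) (by omega) j
      rw [add_zero] at h1
      rw [h1, prodSeq_eq (m := M + 1) b c (i := M) (by omega) j]
      linear_combination (b 0 * b M) * sq_one hc j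
  rw [Finset.sum_congr rfl this, Finset.sum_add_distrib, Finset.mul_sum]
  simp
  ring

/-- The number of blocks of length `m` (among `k`) that are not `c j` times the block `b`. -/
noncomputable def bad (a : ℕ → ℝ) (m k : ℕ) (b c : ℕ → ℝ) : ℕ :=
  ((range k).filter fun j => ∃ i, i < m ∧ a (m * j + i) ≠ b i * c j).card

theorem dist_le {a b c : ℕ → ℝ} (ha : IsSign a) (hb : IsSign b) (hc : IsSign c) (m k : ℕ) :
    ∑ n ∈ range (m * k), |a n - prodSeq m b c n| ≤ 2 * m * bad a m k b c := by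
  rw [sum_block]
  have h1 : ∀ j ∈ range k, ∑ i ∈ range m, |a (m * j + i) - prodSeq m b c (m * j + i)|
      ≤ if (∃ i, i < m ∧ a (m * j + i) ≠ b i * c j) then (2 * m : ℝ) else 0 := by
    intro j _
    split_ifs with h
    · have : ∀ i ∈ range m, |a (m * j + i) - prodSeq m b c (m * j + i)| ≤ 2 := by
        intro i hi
        rw [mem_range] at hi
        rw [prodSeq_eq b c hi]
        rcases ha (m * j + i) with h1 | h1 <;> rcases hb i with h2 | h2 <;>
          rcases hc j with h3 | h3 <;> rw [h1, h2, h3] <;> norm_num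
      refine (Finset.sum_le_sum this).trans ?_
      simp
      linarith
    · push Not at h
      apply le_of_eq
      apply Finset.sum_eq_zero
      intro i hi
      rw [mem_range] at hi
      rw [prodSeq_eq b c hi, h i hi]
      simp
  refine (Finset.sum_le_sum h1).trans ?_
  rw [← Finset.sum_filter, Finset.sum_const, nsmul_eq_mul]
  unfold bad
  apply le_of_eq
  ring

theorem auto_diff {a a' : ℕ → ℝ} (ha : IsSign a) (ha' : IsSign a') (N s : ℕ) :
    |auto a N s - auto a' N s| ≤ 2 * ∑ n ∈ range N, |a n - a' n| := by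
  unfold auto
  rw [← Finset.sum_sub_distrib]
  refine (Finset.abs_sum_le_sum_abs _ _).trans ?_
  have h1 : ∀ n ∈ range (N - s), |a n * a (n + s) - a' n * a' (n + s)|
      ≤ |a n - a' n| + |a (n + s) - a' (n + s)| := by
    intro n _
    rcases ha n with h1 | h1 <;> rcases ha (n + s) with h2 | h2 <;>
      rcases ha' n with h3 | h3 <;> rcases ha' (n + s) with h4 | h4 <;>
      rw [h1, h2, h3, h4] <;> norm_num
  refine (Finset.sum_le_sum h1).trans ?_
  rw [Finset.sum_add_distrib, two_mul]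
  apply add_le_add
  · apply Finset.sum_le_sum_of_subset_of_nonneg
    · intro n hn
      rw [mem_range] at hn ⊢
      omega
    · intro n _ _
      positivity
  · by_cases hsN : s ≤ N
    · have e : ∑ n ∈ range N, |a n - a' n| = ∑ n ∈ range (s + (N - s)), |a n - a' n| := by
        rw [show s + (N - s) = N by omega]
      rw [e, Finset.sum_range_add]
      have h2 : ∑ n ∈ range (N - s), |a (n + s) - a' (n + s)|
          = ∑ n ∈ range (N - s), |a (s + n) - a' (s + n)| := by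
        refine Finset.sum_congr rfl fun n _ => ?_
        rw [add_comm n s]
      rw [h2]
      have : (0 : ℝ) ≤ ∑ n ∈ range s, |a n - a' n| :=
        Finset.sum_nonneg fun n _ => abs_nonneg _
      linarith
    · have : N - s = 0 := by omega
      rw [this]
      simp
      exact Finset.sum_nonneg fun n _ => abs_nonneg _

theorem prodSeq_sign {m : ℕ} {b c : ℕ → ℝ} (hb : IsSign b) (hc : IsSign c) :
    IsSign (prodSeq m b c) := by
  intro n
  unfold prodSeq
  rcases hb (n % m) with h1 | h1 <;> rcases hc (n / m) with h2 | h2 <;> rw [h1, h2] <;> norm_num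

theorem exists_max (a : ℕ → ℝ) (N : ℕ) :
    ∃ z : ℂ, ‖z‖ = 1 ∧ ∀ w : ℂ, ‖w‖ = 1 → ‖P a N w‖ ^ 2 ≤ ‖P a N z‖ ^ 2 := by
  have hc : IsCompact (Metric.sphere (0 : ℂ) 1) := isCompact_sphere 0 1
  have hn : (Metric.sphere (0 : ℂ) 1).Nonempty := ⟨1, by simp⟩
  obtain ⟨z, hz, hm⟩ := hc.exists_isMaxOn hn
    (f := fun w => ‖P a N w‖ ^ 2) (by have := P_cont a N; fun_prop)
  refine ⟨z, by simpa using hz, fun w hw => ?_⟩
  exact hm (by simpa using hw)

theorem sum_sq {a : ℕ → ℝ} (ha : IsSign a) (N : ℕ) : ∑ n ∈ range N, a n ^ 2 = N := by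
  have : ∀ n ∈ range N, a n ^ 2 = 1 := fun n _ => by rw [pow_two]; exact sq_one ha n
  rw [Finset.sum_congr rfl this]
  simp

theorem abs_auto_le {a : ℕ → ℝ} (ha : IsSign a) {N s : ℕ} {S : ℝ} (hs : 1 ≤ s) (hsN : s ≤ N)
    (h : ∀ z : ℂ, ‖z‖ = 1 → ‖P a N z‖ ^ 2 ≤ S) : |auto a N s| ≤ S - N := by
  have h1 := auto_le (ε := 1) hs hsN (by norm_num) h
  have h2 := auto_le (ε := -1) hs hsN (by norm_num) h
  rw [sum_sq ha] at h1 h2
  rw [abs_le]
  constructor <;> linarith

/-- Every autocorrelation. -/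
theorem part_one {a : ℕ → ℝ} (ha : IsSign a) (N : ℕ) :
    ∃ z : ℂ, ‖z‖ = 1 ∧ ∀ s, 1 ≤ s → s ≤ N → (N : ℝ) + |auto a N s| ≤ ‖P a N z‖ ^ 2 := by
  obtain ⟨z, hz, hm⟩ := exists_max a N
  refine ⟨z, hz, fun s hs hsN => ?_⟩
  have := abs_auto_le ha hs hsN hm
  linarith

/-- A dominant block. -/
theorem part_two {a b c : ℕ → ℝ} (ha : IsSign a) (hb : IsSign b) (hc : IsSign c) {m k : ℕ}
    (hm : 2 ≤ m) (hk : 1 ≤ k) :
    ∃ z : ℂ, ‖z‖ = 1 ∧
      (1 + 1 / (2 * (m : ℝ) - 1) - 4 * ((bad a m k b c : ℝ) / (k : ℝ))) * ((m : ℝ) * (k : ℝ)) ≤ ‖P a (m * k) z‖ ^ 2 := by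
  obtain ⟨z, hz, hmax⟩ := exists_max a (m * k)
  refine ⟨z, hz, ?_⟩
  obtain ⟨M, rfl⟩ : ∃ M, m = M + 1 := ⟨m - 1, by omega⟩
  obtain ⟨K, rfl⟩ : ∃ K, k = K + 1 := ⟨k - 1, by omega⟩
  set S := ‖P a ((M + 1) * (K + 1)) z‖ ^ 2 with hS
  set e : ℝ := ((bad a (M + 1) (K + 1) b c : ℕ) : ℝ) with he
  have hd := dist_le ha hb hc (M + 1) (K + 1)
  have hps := prodSeq_sign (m := M + 1) hb hc
  have hM1 : 1 ≤ M := by omega
  have hle1 : M ≤ (M + 1) * (K + 1) := by nlinarith
  have hle2 : M + 1 ≤ (M + 1) * (K + 1) := by nlinarith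
  have h1 := abs_auto_le ha hM1 hle1 hmax
  have h2 := abs_auto_le ha (by omega : 1 ≤ M + 1) hle2 hmax
  have h3 := auto_diff ha hps ((M + 1) * (K + 1)) M
  have h4 := auto_diff ha hps ((M + 1) * (K + 1)) (M + 1)
  rw [auto_prod_M M K hc] at h3
  rw [auto_prod_m M K hb] at h4
  set G := ∑ j ∈ range K, c j * c (j + 1) with hG
  set A := ∑ i ∈ range M, b (i + 1) * b i with hA
  have hAle : |A| ≤ M := by
    rw [hA]
    refine (Finset.abs_sum_le_sum_abs _ _).trans ?_
    have : ∀ i ∈ range M, |b (i + 1) * b i| ≤ 1 := by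
      intro i _
      rcases hb i with h1 | h1 <;> rcases hb (i + 1) with h2 | h2 <;> rw [h1, h2] <;> norm_num
    refine (Finset.sum_le_sum this).trans ?_
    simp
  have hbb : |b 0 * b M| = 1 := by
    rcases hb 0 with h1 | h1 <;> rcases hb M with h2 | h2 <;> rw [h1, h2] <;> norm_num
  push_cast at h1 h2 hd ⊢
  set D := ∑ n ∈ range ((M + 1) * (K + 1)), |a n - prodSeq (M + 1) b c n| with hD
  have hMpos : (1 : ℝ) ≤ M := by exact_mod_cast hM1
  have hKpos : (0 : ℝ) ≤ K := Nat.cast_nonneg K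
  -- abbreviation: T = S - N
  set T : ℝ := S - ((M : ℝ) + 1) * ((K : ℝ) + 1) with hT
  have hDe : D ≤ 2 * ((M : ℝ) + 1) * e := hd
  -- the shift m
  have h5 : ((M : ℝ) + 1) * |G| ≤ T + 2 * D := by
    have : |((M : ℝ) + 1) * G| ≤ T + 2 * D := by
      have h6 := abs_le.1 h2
      have h7 := abs_le.1 h4
      rw [abs_le]
      constructor <;> linarith [h6.1, h6.2, h7.1, h7.2]
    rwa [abs_mul, abs_of_pos (by linarith : (0 : ℝ) < (M : ℝ) + 1)] at this
  have h8 : (K : ℝ) + 1 ≤ T + 2 * D + |A * G| := by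
    have h6 := abs_le.1 h1
    have h7 := abs_le.1 h3
    have h9 : |((K : ℝ) + 1) * (b 0 * b M)| = (K : ℝ) + 1 := by
      rw [abs_mul, hbb, mul_one, abs_of_pos (by linarith)]
    have h10 := le_abs_self (A * G)
    have h11 := neg_abs_le (A * G)
    rw [← h9]
    rw [abs_le]
    constructor <;> linarith [h6.1, h6.2, h7.1, h7.2]
  rw [abs_mul] at h8
  have h12 : |A| * |G| ≤ M * |G| := mul_le_mul_of_nonneg_right hAle (abs_nonneg _)
  have h13 : ((M : ℝ) + 1) * (K + 1) ≤ (2 * M + 1) * (T + 2 * D) := by nlinarith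
  have h14 : ((M : ℝ) + 1) * (K + 1) ≤ (2 * M + 1) * (T + 4 * ((M + 1) * e)) := by nlinarith
  have h15 : ((M : ℝ) + 1) * (K + 1) / (2 * M + 1) ≤ T + 4 * ((M + 1) * e) := by
    rw [div_le_iff₀ (by linarith)]
    linarith
  have h16 : (1 + 1 / (2 * ((M : ℝ) + 1) - 1) - 4 * (e / (K + 1))) * ((M + 1) * (K + 1))
      = ((M : ℝ) + 1) * (K + 1) + ((M : ℝ) + 1) * (K + 1) / (2 * M + 1)
        - 4 * ((M + 1) * e) := by
    have : (2 * ((M : ℝ) + 1) - 1) = 2 * M + 1 := by ring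
    rw [this]
    field_simp
  rw [h16]
  linarith

theorem auto_prod_last (m K : ℕ) {b c : ℕ → ℝ} (hb : IsSign b) (hc : IsSign c) :
    |auto (prodSeq m b c) (m * (K + 1)) (m * K)| = m := by
  unfold auto
  have e : m * (K + 1) - m * K = m := by
    rw [Nat.mul_succ]; omega
  rw [e]
  have : ∀ n ∈ range m, prodSeq m b c n * prodSeq m b c (n + m * K) = c 0 * c K := by
    intro n hn
    rw [mem_range] at hn
    have h1 := prodSeq_eq b c hn 0
    rw [Nat.mul_zero, zero_add] at h1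
    rw [h1, add_comm n, prodSeq_eq b c hn]
    linear_combination (c 0 * c K) * sq_one hb n
  rw [Finset.sum_congr rfl this]
  simp only [Finset.sum_const, Finset.card_range, nsmul_eq_mul]
  rw [abs_mul, Nat.abs_cast]
  have : |c 0 * c K| = 1 := by
    rcases hc 0 with h1 | h1 <;> rcases hc K with h2 | h2 <;> rw [h1, h2] <;> norm_num
  rw [this, mul_one]

/-- The polynomial of a product sequence is a product. -/
theorem P_prod (m k : ℕ) (b c : ℕ → ℝ) (z : ℂ) :
    P (prodSeq m b c) (m * k) z = P b m z * P c k (z ^ m) := by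
  unfold P
  induction k with
  | zero => simp
  | succ K ih =>
    rw [Nat.mul_succ, Finset.sum_range_add, ih, Finset.sum_range_succ, mul_add]
    congr 1
    rw [Finset.sum_mul]
    refine Finset.sum_congr rfl fun i hi => ?_
    rw [mem_range] at hi
    rw [prodSeq_eq b c hi]
    push_cast
    ring

/-- Products with a short factor. -/
theorem part_three {b c : ℕ → ℝ} (hb : IsSign b) (hc : IsSign c) {m k : ℕ}
    (hm : 2 ≤ m) (hk : 2 ≤ k) :
    ∃ z : ℂ, ‖z‖ = 1 ∧
      (1 + max (1 / (2 * (m : ℝ) - 1)) (1 / (k : ℝ))) * ((m : ℝ) * (k : ℝ)) ≤ ‖P b m z * P c k (z ^ m)‖ ^ 2 := by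
  have hps := prodSeq_sign (m := m) hb hc
  rcases max_choice (1 / (2 * (m : ℝ) - 1)) (1 / (k : ℝ)) with h | h
  · obtain ⟨z, hz, h1⟩ := part_two hps hb hc hm (by omega : 1 ≤ k)
    refine ⟨z, hz, ?_⟩
    have hbad : bad (prodSeq m b c) m k b c = 0 := by
      unfold bad
      rw [Finset.card_eq_zero, Finset.filter_eq_empty_iff]
      rintro j _ ⟨i, hi, hne⟩
      exact hne (prodSeq_eq b c hi j)
    rw [hbad] at h1
    rw [h, ← P_prod]
    simpa using h1
  · obtain ⟨z, hz, h1⟩ := part_one hps (m * k)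
    refine ⟨z, hz, ?_⟩
    obtain ⟨K, rfl⟩ : ∃ K, k = K + 1 := ⟨k - 1, by omega⟩
    have h2 := h1 (m * K) (by nlinarith) (by nlinarith)
    rw [auto_prod_last m K hb hc] at h2
    rw [h, ← P_prod]
    refine le_trans (le_of_eq ?_) h2
    push_cast
    have : ((K : ℝ) + 1) ≠ 0 := by positivity
    field_simp

/-- An ultraflat sequence of real Littlewood polynomials of lengths `N n`. -/
def Ultraflat (a : ℕ → ℕ → ℝ) (N : ℕ → ℕ) : Prop :=
  (∀ n, IsSign (a n)) ∧ Filter.Tendsto N Filter.atTop Filter.atTop ∧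
    ∀ ε : ℝ, 0 < ε → ∀ᶠ n in Filter.atTop, ∀ z : ℂ, ‖z‖ = 1 →
      |‖P (a n) (N n) z‖ / √(N n : ℝ) - 1| ≤ ε

theorem not_ultraflat {a : ℕ → ℕ → ℝ} {N : ℕ → ℕ} {κ : ℝ} (hκ : 0 < κ)
    (h : ∀ n, 1 ≤ N n → ∃ z : ℂ, ‖z‖ = 1 ∧ (1 + κ) * (N n : ℝ) ≤ ‖P (a n) (N n) z‖ ^ 2) :
    ¬ Ultraflat a N := by
  rintro ⟨_, hN, hu⟩
  set ε : ℝ := min κ 1 / 4 with hε
  have hm : 0 < min κ 1 := lt_min hκ one_pos
  have hεp : 0 < ε := by positivity
  have hε1 : ε ≤ 1 := by
    have := min_le_right κ 1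
    rw [hε]; linarith
  have hε2 : 4 * ε ≤ κ := by
    have := min_le_left κ 1
    rw [hε]; linarith
  obtain ⟨n, hn1, hn2⟩ := ((hu ε hεp).and (hN.eventually_ge_atTop 1)).exists
  obtain ⟨z, hz, h1⟩ := h n hn2
  have h2 := (abs_le.1 (hn1 z hz)).2
  have hNp : (0 : ℝ) < N n := by exact_mod_cast hn2
  have hs : 0 < √(N n : ℝ) := Real.sqrt_pos.2 hNp
  have h3 : ‖P (a n) (N n) z‖ ≤ (1 + ε) * √(N n : ℝ) := by
    rw [← div_le_iff₀ hs]; linarith
  have h4 : ‖P (a n) (N n) z‖ ^ 2 ≤ ((1 + ε) * √(N n : ℝ)) ^ 2 :=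
    pow_le_pow_left₀ (norm_nonneg _) h3 2
  rw [mul_pow, Real.sq_sqrt hNp.le] at h4
  have h5 : (1 + κ) * (N n : ℝ) ≤ (1 + ε) ^ 2 * (N n : ℝ) := h1.trans h4
  have h6 : 1 + κ ≤ (1 + ε) ^ 2 := le_of_mul_le_mul_right h5 hNp
  nlinarith

theorem part_four {m : ℕ} (hm : 2 ≤ m) {δ : ℝ} (hδ : δ < 1 / (4 * (2 * (m : ℝ) - 1)))
    {a b c : ℕ → ℕ → ℝ} {k : ℕ → ℕ} (hb : ∀ n, IsSign (b n)) (hc : ∀ n, IsSign (c n))
    (hbad : ∀ n, (bad (a n) m (k n) (b n) (c n) : ℝ) ≤ δ * (k n : ℝ)) :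
    ¬ Ultraflat a (fun n => m * k n) := by
  intro hu
  have ha := hu.1
  have hm' : (2 : ℝ) ≤ m := by exact_mod_cast hm
  have hpos : 0 < 2 * (m : ℝ) - 1 := by linarith
  have hκ : 0 < 1 / (2 * (m : ℝ) - 1) - 4 * δ := by
    have : 4 * (1 / (4 * (2 * (m : ℝ) - 1))) = 1 / (2 * (m : ℝ) - 1) := by
      field_simp
    linarith
  refine not_ultraflat hκ (fun n hn => ?_) hu
  have hk : 1 ≤ k n := by
    rcases Nat.eq_zero_or_pos (k n) with h0 | h0
    · simp [h0] at hn
    · exact h0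
  obtain ⟨z, hz, h1⟩ := part_two (ha n) (hb n) (hc n) hm hk
  refine ⟨z, hz, le_trans ?_ h1⟩
  have hkp : (0 : ℝ) < k n := by exact_mod_cast hk
  have h2 : (bad (a n) m (k n) (b n) (c n) : ℝ) / (k n : ℝ) ≤ δ := by
    rw [div_le_iff₀ hkp]; exact hbad n
  push_cast
  apply mul_le_mul_of_nonneg_right _ (by positivity)
  linarith

theorem part_five {b c : ℕ → ℕ → ℝ} {m k : ℕ → ℕ} {M : ℕ} (hb : ∀ n, IsSign (b n))
    (hc : ∀ n, IsSign (c n)) (hm : ∀ n, 2 ≤ m n) (hk : ∀ n, 2 ≤ k n)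
    (hM : ∀ n, m n ≤ M ∨ k n ≤ M) :
    ¬ Ultraflat (fun n => prodSeq (m n) (b n) (c n)) (fun n => m n * k n) := by
  have hM0 : 2 ≤ M := by
    have h1 := hm 0
    have h2 := hk 0
    rcases hM 0 with h | h <;> omega
  have hMp : (2 : ℝ) ≤ M := by exact_mod_cast hM0
  refine not_ultraflat (κ := 1 / (2 * (M : ℝ))) (by positivity) (fun n _ => ?_)
  obtain ⟨z, hz, h1⟩ := part_three (hb n) (hc n) (hm n) (hk n)
  refine ⟨z, hz, ?_⟩
  rw [P_prod]
  refine le_trans ?_ h1
  push_cast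
  apply mul_le_mul_of_nonneg_right _ (by positivity)
  apply add_le_add le_rfl
  have hm' : (2 : ℝ) ≤ m n := by exact_mod_cast hm n
  have hk' : (2 : ℝ) ≤ k n := by exact_mod_cast hk n
  rcases hM n with h | h
  · refine le_trans ?_ (le_max_left _ _)
    have : (m n : ℝ) ≤ M := by exact_mod_cast h
    exact one_div_le_one_div_of_le (by linarith) (by linarith)
  · refine le_trans ?_ (le_max_right _ _)
    have : (k n : ℝ) ≤ M := by exact_mod_cast h
    exact one_div_le_one_div_of_le (by linarith) (by linarith)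

/-- **Result.** (1) For every real Littlewood polynomial one point of the unit circle satisfies
`|P(z)|^2 ≥ N + |c_s|` for all autocorrelations `c_s`; (2) Littlewood polynomials of length
`m k` in which all but a small proportion of the `k` blocks of length `m` are `±` one block;
(3) products `B(z) C(z^m)`; (4), (5) no ultraflat sequence with a dominant block of bounded
length, and none of products with a bounded factor. -/
theorem result :
    (∀ a : ℕ → ℝ, IsSign a → ∀ N : ℕ,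
      ∃ z : ℂ, ‖z‖ = 1 ∧ ∀ s, 1 ≤ s → s ≤ N → (N : ℝ) + |auto a N s| ≤ ‖P a N z‖ ^ 2) ∧
    (∀ a b c : ℕ → ℝ, IsSign a → IsSign b → IsSign c → ∀ m k : ℕ, 2 ≤ m → 1 ≤ k →
      ∃ z : ℂ, ‖z‖ = 1 ∧
        (1 + 1 / (2 * (m : ℝ) - 1) - 4 * ((bad a m k b c : ℝ) / (k : ℝ)))
          * ((m : ℝ) * (k : ℝ)) ≤ ‖P a (m * k) z‖ ^ 2) ∧
    (∀ b c : ℕ → ℝ, IsSign b → IsSign c → ∀ m k : ℕ, 2 ≤ m → 2 ≤ k →
      (∀ z : ℂ, P (prodSeq m b c) (m * k) z = P b m z * P c k (z ^ m)) ∧
      ∃ z : ℂ, ‖z‖ = 1 ∧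
        (1 + max (1 / (2 * (m : ℝ) - 1)) (1 / (k : ℝ))) * ((m : ℝ) * (k : ℝ))
          ≤ ‖P b m z * P c k (z ^ m)‖ ^ 2) ∧
    (∀ m : ℕ, 2 ≤ m → ∀ δ : ℝ, δ < 1 / (4 * (2 * (m : ℝ) - 1)) →
      ∀ (a b c : ℕ → ℕ → ℝ) (k : ℕ → ℕ), (∀ n, IsSign (b n)) → (∀ n, IsSign (c n)) →
      (∀ n, (bad (a n) m (k n) (b n) (c n) : ℝ) ≤ δ * (k n : ℝ)) →
      ¬ Ultraflat a (fun n => m * k n)) ∧
    (∀ (b c : ℕ → ℕ → ℝ) (m k : ℕ → ℕ) (M : ℕ), (∀ n, IsSign (b n)) → (∀ n, IsSign (c n)) →
      (∀ n, 2 ≤ m n) → (∀ n, 2 ≤ k n) → (∀ n, m n ≤ M ∨ k n ≤ M) →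
      ¬ Ultraflat (fun n => prodSeq (m n) (b n) (c n)) (fun n => m n * k n)) :=
  ⟨fun _ ha N => part_one ha N,
    fun _ _ _ ha hb hc _ _ hm hk => part_two ha hb hc hm hk,
    fun _ _ hb hc _ _ hm hk => ⟨fun z => P_prod _ _ _ _ z, part_three hb hc hm hk⟩,
    fun _ hm _ hδ _ _ _ _ hb hc hbad => part_four hm hδ hb hc hbad,
    fun _ _ _ _ _ hb hc hm hk hM => part_five hb hc hm hk hM⟩

end Vale.Agent.Results.P110.BlockSequences
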