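import Vale.Agent.Lib.P110.Concat

/-! P110: initial segments of Littlewood polynomials: minima on the circle. -/

namespace Vale.Agent.Results.P110.CircleMinima

open Finset Filter

/-- The initial segment `a 0 + a 1 z + ... + a (n-1) z^(n-1)` of length `n`. -/
noncomputable def seg (a : ℕ → ℂ) (n : ℕ) (z : ℂ) : ℂ := ∑ k ∈ range n, a k * z ^ k

/-- The initial segment of length `n` is `c`-flat. -/
def Flat (c : ℝ) (a : ℕ → ℂ) (n : ℕ) : Prop :=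
  ∀ z : ℂ, ‖z‖ = 1 → (1 - c) * Real.sqrt n ≤ ‖seg a n z‖ ∧ ‖seg a n z‖ ≤ (1 + c) * Real.sqrt n

theorem seg_eq (a : ℕ → ℂ) (n : ℕ) (θ : ℝ) :
    seg a n (Complex.exp (θ * Complex.I)) = Vale.Agent.P110.s a n θ := by
  unfold seg Vale.Agent.P110.s
  refine sum_congr rfl fun k _ => ?_
  rw [← Complex.exp_nat_mul]
  congr 2
  ring

theorem flat_s {c : ℝ} {a : ℕ → ℂ} {n : ℕ} (h : Flat c a n) (θ : ℝ) :
    (1 - c) * Real.sqrt n ≤ ‖Vale.Agent.P110.s a n θ‖ ∧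
      ‖Vale.Agent.P110.s a n θ‖ ≤ (1 + c) * Real.sqrt n := by
  rw [← seg_eq]
  exact h _ (Complex.norm_exp_ofReal_mul_I θ)

theorem two_flat {a : ℕ → ℂ} (ha : ∀ k, ‖a k‖ = 1) {c : ℝ} (hc0 : 0 ≤ c) {m n : ℕ} (hm : 1 ≤ m)
    (hmn : (1 + 8 * c) * m < (1 - 8 * c) * n) (h0 : Flat c a m) (h1 : Flat c a n) :
    ∃ l, m ≤ l ∧ l < n ∧ ∃ z : ℂ, ‖z‖ = 1 ∧ ‖seg a l z‖ ≤ 1 := by
  obtain ⟨l, h2, h3, θ, h4⟩ := Vale.Agent.P110.main ha hc0 hm hmn (flat_s h0) (flat_s h1)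
  refine ⟨l, h2, h3, Complex.exp (θ * Complex.I), Complex.norm_exp_ofReal_mul_I θ, ?_⟩
  rw [seg_eq]
  exact h4

theorem not_flat {a : ℕ → ℂ} {c : ℝ} (hc : c ≤ 1 / 8) {l : ℕ} (hl : 2 ≤ l) {z : ℂ}
    (hz : ‖z‖ = 1) (h : ‖seg a l z‖ ≤ 1) : ¬ Flat c a l := by
  intro hf
  have h1 := (hf z hz).1
  have h2 : Real.sqrt (49 / 25) ≤ Real.sqrt l :=
    Real.sqrt_le_sqrt ((by norm_num : (49 / 25 : ℝ) ≤ 2).trans (by exact_mod_cast hl))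
  have h3 : Real.sqrt (49 / 25) = 7 / 5 := by
    rw [show (49 / 25 : ℝ) = (7 / 5) ^ 2 by norm_num]
    exact Real.sqrt_sq (by norm_num)
  rw [h3] at h2
  nlinarith

/-- Every unimodular (in particular every Littlewood) polynomial of large length `N` has an initial
segment of length between `(1 - d) N` and `N` which is not `d / 17`-flat. -/
theorem prefix_not_flat {d : ℝ} (hd0 : 0 < d) (hd1 : d ≤ 1) :
    ∃ N₀ : ℕ, ∀ N : ℕ, N₀ ≤ N → ∀ a : ℕ → ℂ, (∀ k, ‖a k‖ = 1) →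
      ∃ l : ℕ, (1 - d) * N ≤ l ∧ l ≤ N ∧ ¬ Flat (d / 17) a l := by
  obtain ⟨N₀, hN₀⟩ := exists_nat_gt (100 / d)
  refine ⟨N₀, fun N hN a ha => ?_⟩
  have hNd : 100 / d < N := hN₀.trans_le (by exact_mod_cast hN)
  rw [div_lt_iff₀ hd0] at hNd
  have hN0 : (0:ℝ) ≤ N := Nat.cast_nonneg N
  by_contra hcon
  push Not at hcon
  set m : ℕ := ⌈(1 - d) * N⌉₊ + 2 with hm
  have hm1 : (1 - d) * N ≤ m := by
    rw [hm]; push_cast
    linarith [Nat.le_ceil ((1 - d) * N)]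
  have hm2 : (m:ℝ) ≤ (1 - d) * N + 3 := by
    rw [hm]; push_cast
    linarith [Nat.ceil_lt_add_one (mul_nonneg (by linarith : 0 ≤ 1 - d) hN0)]
  have hmN : (m:ℝ) ≤ N := by nlinarith
  have h8 : (1 + 8 * (d / 17)) * m < (1 - 8 * (d / 17)) * N := by
    have h9 : (1 + 8 * (d / 17)) * m ≤ (1 + 8 * (d / 17)) * ((1 - d) * N + 3) :=
      mul_le_mul_of_nonneg_left hm2 (by linarith)
    nlinarith [mul_nonneg hd0.le (mul_nonneg hd0.le hN0)]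
  obtain ⟨l, h1, h2, z, hz, h3⟩ := two_flat ha (by positivity) (by omega : 1 ≤ m) h8
    (hcon m hm1 (by exact_mod_cast hmN)) (hcon N (by nlinarith) le_rfl)
  refine not_flat (by linarith) (by omega : 2 ≤ l) hz h3 (hcon l ?_ h2.le)
  exact hm1.trans (by exact_mod_cast h1)

theorem minima {a : ℕ → ℂ} (ha : ∀ k, ‖a k‖ = 1) :
    ∃ K : ℝ, ∃ᶠ n in atTop, ∃ z : ℂ, ‖z‖ = 1 ∧ ‖seg a n z‖ ≤ K := by
  obtain ⟨K, hK⟩ := Vale.Agent.P110.liminf_bounded ha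
  refine ⟨K, hK.mono ?_⟩
  rintro n ⟨θ, hθ⟩
  exact ⟨Complex.exp (θ * Complex.I), Complex.norm_exp_ofReal_mul_I θ, by rw [seg_eq]; exact hθ⟩

theorem seg_P (a : ℕ → ℂ) (n : ℕ) (z : ℂ) : (Vale.Agent.P110.P a n).eval z = seg a n z :=
  Vale.Agent.P110.P_eval a n z

theorem concat (a : ℕ → ℂ) (m n : ℕ) (hm : 0 < m) (hA : ∀ z : ℂ, ‖z‖ = 1 → seg a m z ≠ 0)
    (hB : ∀ z : ℂ, ‖z‖ = 1 → seg (fun k => a (m + k)) n z ≠ 0) :
    (∃ z : ℂ, ‖z‖ = 1 ∧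
      ‖seg a (m + n) z‖ = ‖seg a m z‖ + ‖seg (fun k => a (m + k)) n z‖) ∧
    ∃ z : ℂ, ‖z‖ = 1 ∧
      ‖seg a (m + n) z‖ = |‖seg a m z‖ - ‖seg (fun k => a (m + k)) n z‖| := by
  have h := Vale.Agent.P110.concat a m n hm (fun z hz => by rw [seg_P]; exact hA z hz)
    (fun z hz => by rw [seg_P]; exact hB z hz)
  simpa only [seg_P] using h

theorem flat_ne {c : ℝ} (hc : c < 1) {a : ℕ → ℂ} {n : ℕ} (hn : 0 < n) (h : Flat c a n) (z : ℂ)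
    (hz : ‖z‖ = 1) : seg a n z ≠ 0 := by
  intro h0
  have h1 := (h z hz).1
  rw [h0, norm_zero] at h1
  have h2 : 0 < (1 - c) * Real.sqrt n :=
    mul_pos (by linarith) (Real.sqrt_pos.2 (by exact_mod_cast hn))
  linarith

theorem flat_concat {c : ℝ} (hc : c < 1) {a : ℕ → ℂ} {m n : ℕ} (hm : 0 < m) (hn : 0 < n)
    (hA : Flat c a m) (hB : Flat c (fun k => a (m + k)) n) :
    ∃ z : ℂ, ‖z‖ = 1 ∧ (1 - c) * (Real.sqrt m + Real.sqrt n) ≤ ‖seg a (m + n) z‖ := by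
  obtain ⟨z, hz, h⟩ := (concat a m n hm (flat_ne hc hm hA) (flat_ne hc hn hB)).1
  refine ⟨z, hz, ?_⟩
  rw [h, mul_add]
  exact add_le_add (hA z hz).1 (hB z hz).1

theorem halves {c : ℝ} (hc : c ≤ 17 / 100) {a : ℕ → ℂ} {n : ℕ} (hn : 0 < n)
    (hA : Flat c a n) (hB : Flat c (fun k => a (n + k)) n) : ¬ Flat c a (n + n) := by
  intro hP
  obtain ⟨z, hz, h⟩ := flat_concat (by linarith) hn hn hA hB
  have h1 := h.trans (hP z hz).2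
  have hs : 0 < Real.sqrt n := Real.sqrt_pos.2 (by exact_mod_cast hn)
  have h2 : Real.sqrt ((n + n : ℕ) : ℝ) ≤ 1.4143 * Real.sqrt n := by
    rw [Real.sqrt_le_left (by positivity)]
    rw [mul_pow, Real.sq_sqrt (Nat.cast_nonneg n)]
    push_cast
    have : (0:ℝ) ≤ n := Nat.cast_nonneg n
    nlinarith
  have hc0 : -1 < c := by
    by_contra hcon
    push Not at hcon
    have h3 := (hP z hz).1.trans (hP z hz).2
    have h4 : 0 < Real.sqrt ((n + n : ℕ) : ℝ) := Real.sqrt_pos.2 (by positivity)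
    nlinarith
  have h3 : (1 + c) * Real.sqrt ((n + n : ℕ) : ℝ) ≤ (1 + c) * (1.4143 * Real.sqrt n) :=
    mul_le_mul_of_nonneg_left h2 (by linarith)
  nlinarith

/-- Initial segments and concatenations of unimodular polynomials: no sequence has minima tending
to infinity, two flat segments of different lengths force a small value in between, and the
phases of the two parts of a concatenation align somewhere and oppose somewhere. -/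
theorem result :
    (∀ a : ℕ → ℂ, (∀ k, ‖a k‖ = 1) →
      ∃ K : ℝ, ∃ᶠ n in atTop, ∃ z : ℂ, ‖z‖ = 1 ∧ ‖seg a n z‖ ≤ K) ∧
    (∀ a : ℕ → ℂ, (∀ k, ‖a k‖ = 1) → ∀ (c : ℝ) (m n : ℕ), 0 ≤ c → 1 ≤ m →
      (1 + 8 * c) * m < (1 - 8 * c) * n → Flat c a m → Flat c a n →
      ∃ l, m ≤ l ∧ l < n ∧ ∃ z : ℂ, ‖z‖ = 1 ∧ ‖seg a l z‖ ≤ 1) ∧
    (∀ d : ℝ, 0 < d → d ≤ 1 → ∃ N₀ : ℕ, ∀ N : ℕ, N₀ ≤ N → ∀ a : ℕ → ℂ, (∀ k, ‖a k‖ = 1) →
      ∃ l : ℕ, (1 - d) * N ≤ l ∧ l ≤ N ∧ ¬ Flat (d / 17) a l) ∧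
    (∀ (a : ℕ → ℂ) (m n : ℕ), 0 < m → (∀ z : ℂ, ‖z‖ = 1 → seg a m z ≠ 0) →
      (∀ z : ℂ, ‖z‖ = 1 → seg (fun k => a (m + k)) n z ≠ 0) →
      (∃ z : ℂ, ‖z‖ = 1 ∧
        ‖seg a (m + n) z‖ = ‖seg a m z‖ + ‖seg (fun k => a (m + k)) n z‖) ∧
      ∃ z : ℂ, ‖z‖ = 1 ∧
        ‖seg a (m + n) z‖ = |‖seg a m z‖ - ‖seg (fun k => a (m + k)) n z‖|) ∧
    (∀ (a : ℕ → ℂ) (c : ℝ) (n : ℕ), c ≤ 17 / 100 → 0 < n → Flat c a n →
      Flat c (fun k => a (n + k)) n → ¬ Flat c a (n + n)) :=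
  ⟨fun _ ha => minima ha, fun _ ha _ _ _ hc0 hm hmn h0 h1 => two_flat ha hc0 hm hmn h0 h1,
    fun _ hd0 hd1 => prefix_not_flat hd0 hd1, concat,
    fun _ _ _ hc hn hA hB => halves hc hn hA hB⟩

end Vale.Agent.Results.P110.CircleMinima
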