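import Vale.Agent.Lib.P110.Unions3

/-! P110: flat polynomials are not unions of boundedly many flat polynomials. -/

namespace Vale.Agent.Results.P110.FlatUnions

open Finset Complex Vale.Agent.P110.Unions

/-- Flat polynomials cannot be concatenations of boundedly many flat blocks, interleavings of
boundedly many flat polynomials, or Kronecker products with a short factor. -/
theorem result (c : ℝ) (hc0 : 0 ≤ c) (hc1 : c < 1) :
    (∀ (a : ℕ → ℤ) (m n : ℕ), 2 ≤ m → 0 < n → Flat c a (m * n) →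
      (∀ r < m, Flat c (fun k => a (r + m * k)) n) → 1 ≤ 6 * m * c) ∧
    (∀ (a : ℕ → ℤ) (m n : ℕ), 2 ≤ m → 0 < n → Flat c a (m * n) →
      (∀ i < m, Flat c (fun k => a (i * n + k)) n) → (1 - c) ^ 4 ≤ 24 * m ^ 2 * c) ∧
    (∀ (a : ℕ → ℤ) (N M : ℕ), 0 < N → Flat c a (N + M) → Flat c a N →
      Flat c (fun k => a (N + k)) M →
      (1 - c) ^ 4 * (N * M) ≤ 8 * c ^ 2 * ((N : ℝ) + M) ^ 2) ∧
    (∀ (a b d : ℕ → ℤ) (m n : ℕ), 2 ≤ m → 0 < n → (∀ k < m, b k = 1 ∨ b k = -1) →
      (∀ k < m * n, a k = b (k % m) * d (k / m)) → Flat c a (m * n) →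
      Flat c d n ∧ (1 - c) ^ 2 ≤ 4 * m * c) := by
  refine ⟨fun a m n hm hn h h1 => inter hc0 hc1.le a m n hm hn h h1,
    fun a m n hm hn h h1 => blocks hc0 hc1.le a m n hm hn h h1,
    fun a N M hN h h1 h2 => concat hc0 hc1.le a N M hN h h1 h2, ?_⟩
  intro a b d m n hm hn hb hk h
  refine kron hc0 hc1 b d m n hm hn hb ?_
  intro z hz
  have e := h z hz
  rw [lw_congr hk z] at e
  exact e

end Vale.Agent.Results.P110.FlatUnions
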