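import Vale.Agent.Results.P110.CircleMinima
import Vale.Agent.Results.P110.FlatUnions
import Vale.Agent.Results.P110.BlockSequences

/-! P110: obstructions for flat Littlewood polynomials, three families. -/

namespace Vale.Agent.Results.P110.Combined

open Filter Vale.Agent.Results.P110.CircleMinima Vale.Agent.Results.P110.BlockSequences

/-- Obstructions for flat polynomials: initial segments and concatenations; bounded numbers of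
blocks and decimations; nearly block-periodic polynomials and products. -/
theorem result :
    ((∀ a : ℕ → ℂ, (∀ k, ‖a k‖ = 1) →
      ∃ K : ℝ, ∃ᶠ n in atTop, ∃ z : ℂ, ‖z‖ = 1 ∧ ‖seg a n z‖ ≤ K) ∧
    (∀ a : ℕ → ℂ, (∀ k, ‖a k‖ = 1) → ∀ (c : ℝ) (m n : ℕ), 0 ≤ c → 1 ≤ m →
      (1 + 8 * c) * m < (1 - 8 * c) * n → CircleMinima.Flat c a m → CircleMinima.Flat c a n →
      ∃ l, m ≤ l ∧ l < n ∧ ∃ z : ℂ, ‖z‖ = 1 ∧ ‖seg a l z‖ ≤ 1) ∧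
    (∀ d : ℝ, 0 < d → d ≤ 1 → ∃ N₀ : ℕ, ∀ N : ℕ, N₀ ≤ N → ∀ a : ℕ → ℂ, (∀ k, ‖a k‖ = 1) →
      ∃ l : ℕ, (1 - d) * N ≤ l ∧ l ≤ N ∧ ¬ CircleMinima.Flat (d / 17) a l) ∧
    (∀ (a : ℕ → ℂ) (m n : ℕ), 0 < m → (∀ z : ℂ, ‖z‖ = 1 → seg a m z ≠ 0) →
      (∀ z : ℂ, ‖z‖ = 1 → seg (fun k => a (m + k)) n z ≠ 0) →
      (∃ z : ℂ, ‖z‖ = 1 ∧
        ‖seg a (m + n) z‖ = ‖seg a m z‖ + ‖seg (fun k => a (m + k)) n z‖) ∧
      ∃ z : ℂ, ‖z‖ = 1 ∧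
        ‖seg a (m + n) z‖ = |‖seg a m z‖ - ‖seg (fun k => a (m + k)) n z‖|) ∧
    (∀ (a : ℕ → ℂ) (c : ℝ) (n : ℕ), c ≤ 17 / 100 → 0 < n → CircleMinima.Flat c a n →
      CircleMinima.Flat c (fun k => a (n + k)) n → ¬ CircleMinima.Flat c a (n + n))) ∧
    (∀ c : ℝ, 0 ≤ c → c < 1 →
      (∀ (a : ℕ → ℤ) (m n : ℕ), 2 ≤ m → 0 < n → CircleMinima.Flat c (fun k => (a k : ℂ)) (m * n) →
        (∀ i < m, CircleMinima.Flat c (fun k => (a (i * n + k) : ℂ)) n) →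
        (1 - c) ^ 4 ≤ 24 * m ^ 2 * c) ∧
      (∀ (a : ℕ → ℤ) (m n : ℕ), 2 ≤ m → 0 < n →
        CircleMinima.Flat c (fun k => (a k : ℂ)) (m * n) →
        (∀ r < m, CircleMinima.Flat c (fun k => (a (r + m * k) : ℂ)) n) → 1 ≤ 6 * m * c)) ∧
    ((∀ a b c : ℕ → ℝ, IsSign a → IsSign b → IsSign c → ∀ m k : ℕ, 2 ≤ m → 1 ≤ k →
      ∃ z : ℂ, ‖z‖ = 1 ∧
        (1 + 1 / (2 * (m : ℝ) - 1) - 4 * ((bad a m k b c : ℝ) / (k : ℝ)))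
          * ((m : ℝ) * (k : ℝ)) ≤ ‖P a (m * k) z‖ ^ 2) ∧
    (∀ b c : ℕ → ℝ, IsSign b → IsSign c → ∀ m k : ℕ, 2 ≤ m → 2 ≤ k →
      ∃ z : ℂ, ‖z‖ = 1 ∧
        (1 + max (1 / (2 * (m : ℝ) - 1)) (1 / (k : ℝ))) * ((m : ℝ) * (k : ℝ))
          ≤ ‖P b m z * P c k (z ^ m)‖ ^ 2)) :=
  ⟨CircleMinima.result,
    fun c hc0 hc1 => ⟨(FlatUnions.result c hc0 hc1).2.1, (FlatUnions.result c hc0 hc1).1⟩,
    BlockSequences.result.2.1,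
    fun b c hb hc m k hm hk => (BlockSequences.result.2.2.1 b c hb hc m k hm hk).2⟩

end Vale.Agent.Results.P110.Combined
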